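import Vale.Agent.P032.Words6.H724.SetTab
import Vale.Agent.P032.Words.H151.Box1
import Vale.Agent.P032.Words.H151.Box2
import Vale.Agent.P032.Words.H151.Box3
import Vale.Agent.P032.Words.H151.Box4
import Vale.Agent.P032.Words.H151.Box5

/-!
# P032: the 25 graphs whose tables need no mode, as statements about sets
-/

open Set

noncomputable section

namespace Vale.Agent.P032.Words6.H724

open Vale.Agent.P032.Words.Trie

/-- the words of the graph have an invariant which is constant below every palette tuple and changes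
under rotation -/
def TabC (M : Fin 6 → Fin 6 → Prop) : Prop :=
  ∃ cmp : (Fin 6 → Set (Fin 6)) → ℕ, (∀ h, LegC M h → cmp (fun k => h (k + 1)) ≠ cmp h) ∧
    ∀ T : Fin 6 → Set (Fin 6), AllowT M T → ∀ h g, LegC M h → LegC M g → (∀ k, h k ⊆ T k) →
      (∀ k, g k ⊆ T k) → cmp h = cmp g

theorem ok_B1 : okTab 3 3 B1.L B1.P B1.nb B1.op B1.nbT B1.opT B1.PL = true := by
  decide +kernel

theorem ok_B2 : okTab 4 7 B2.L B2.P B2.nb B2.op B2.nbT B2.opT B2.PL = true := by
  decide +kernel

theorem ok_B3 : okTab 4 6 B3.L B3.P B3.nb B3.op B3.nbT B3.opT B3.PL = true := by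
  decide +kernel

theorem ok_B4 : okTab 4 6 B4.L B4.P B4.nb B4.op B4.nbT B4.opT B4.PL = true := by
  decide +kernel

theorem ok_B5 : okTab 5 8 B5.L B5.P B5.nb B5.op B5.nbT B5.opT B5.PL = true := by
  decide +kernel

theorem ok_B6 : okTab 5 11 B6.L B6.P B6.nb B6.op B6.nbT B6.opT B6.PL = true := by
  decide +kernel

theorem ok_B7 : okTab 5 10 B7.L B7.P B7.nb B7.op B7.nbT B7.opT B7.PL = true := by
  decide +kernel

theorem ok_B8 : okTab 5 10 B8.L B8.P B8.nb B8.op B8.nbT B8.opT B8.PL = true := by
  decide +kernel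

theorem ok_B9 : okTab 5 7 B9.L B9.P B9.nb B9.op B9.nbT B9.opT B9.PL = true := by
  decide +kernel

theorem ok_B10 : okTab 5 9 B10.L B10.P B10.nb B10.op B10.nbT B10.opT B10.PL = true := by
  decide +kernel

theorem ok_B11 : okTab 5 9 B11.L B11.P B11.nb B11.op B11.nbT B11.opT B11.PL = true := by
  decide +kernel

theorem ok_B12 : okTab 6 10 B12.L B12.P B12.nb B12.op B12.nbT B12.opT B12.PL = true := by
  decide +kernel

theorem ok_B14 : okTab 6 12 B14.L B14.P B14.nb B14.op B14.nbT B14.opT B14.PL = true := by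
  decide +kernel

theorem ok_B15 : okTab 6 12 B15.L B15.P B15.nb B15.op B15.nbT B15.opT B15.PL = true := by
  decide +kernel

theorem ok_B16 : okTab 6 11 B16.L B16.P B16.nb B16.op B16.nbT B16.opT B16.PL = true := by
  decide +kernel

theorem ok_B18 : okTab 6 13 B18.L B18.P B18.nb B18.op B18.nbT B18.opT B18.PL = true := by
  decide +kernel

theorem ok_B19 : okTab 6 14 B19.L B19.P B19.nb B19.op B19.nbT B19.opT B19.PL = true := by
  decide +kernel

theorem ok_B20 : okTab 6 13 B20.L B20.P B20.nb B20.op B20.nbT B20.opT B20.PL = true := by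
  decide +kernel

theorem ok_B21 : okTab 6 8 B21.L B21.P B21.nb B21.op B21.nbT B21.opT B21.PL = true := by
  decide +kernel

theorem ok_B23 : okTab 7 11 B23.L B23.P B23.nb B23.op B23.nbT B23.opT B23.PL = true := by
  decide +kernel

theorem ok_B24 : okTab 7 15 B24.L B24.P B24.nb B24.op B24.nbT B24.opT B24.PL = true := by
  decide +kernel

theorem ok_B25 : okTab 7 14 B25.L B25.P B25.nb B25.op B25.nbT B25.opT B25.PL = true := by
  decide +kernel

theorem ok_B27 : okTab 7 16 B27.L B27.P B27.nb B27.op B27.nbT B27.opT B27.PL = true := by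
  decide +kernel

theorem ok_B29 : okTab 7 13 B29.L B29.P B29.nb B29.op B29.nbT B29.opT B29.PL = true := by
  decide +kernel

theorem ok_B31 : okTab 7 17 B31.L B31.P B31.nb B31.op B31.nbT B31.opT B31.PL = true := by
  decide +kernel

/-- the lists of the letters -/
def Lists25 : List (List ℕ) := [B1.L, B2.L, B3.L, B4.L, B5.L, B6.L, B7.L, B8.L, B9.L, B10.L, B11.L, B12.L, B14.L,
  B15.L, B16.L, B18.L, B19.L, B20.L, B21.L, B23.L, B24.L, B25.L, B27.L, B29.L, B31.L]

/-- **The 25 graphs.** -/
theorem tabC_of {M : Fin 6 → Fin 6 → Prop} {nm : Fin 6 → Fin 6} {L : List ℕ} (hL : L ∈ Lists25)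
    (hirr : ∀ a, ¬ M a a) (hb : Function.Bijective nm) (hD : Desc M nm L) : TabC M := by
  simp only [Lists25, List.mem_cons, List.not_mem_nil, or_false] at hL
  rcases hL with rfl | rfl | rfl | rfl | rfl | rfl | rfl | rfl | rfl | rfl | rfl | rfl | rfl | rfl |
    rfl | rfl | rfl | rfl | rfl | rfl | rfl | rfl | rfl | rfl | rfl
  · exact setTab (by norm_num) (by norm_num) ok_B1 B1.chk hirr hb hD
  · exact setTab (by norm_num) (by norm_num) ok_B2 B2.chk hirr hb hD
  · exact setTab (by norm_num) (by norm_num) ok_B3 B3.chk hirr hb hD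
  · exact setTab (by norm_num) (by norm_num) ok_B4 B4.chk hirr hb hD
  · exact setTab (by norm_num) (by norm_num) ok_B5 B5.chk hirr hb hD
  · exact setTab (by norm_num) (by norm_num) ok_B6 B6.chk hirr hb hD
  · exact setTab (by norm_num) (by norm_num) ok_B7 B7.chk hirr hb hD
  · exact setTab (by norm_num) (by norm_num) ok_B8 B8.chk hirr hb hD
  · exact setTab (by norm_num) (by norm_num) ok_B9 B9.chk hirr hb hD
  · exact setTab (by norm_num) (by norm_num) ok_B10 B10.chk hirr hb hD
  · exact setTab (by norm_num) (by norm_num) ok_B11 B11.chk hirr hb hD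
  · exact setTab (by norm_num) (by norm_num) ok_B12 B12.chk hirr hb hD
  · exact setTab (by norm_num) (by norm_num) ok_B14 B14.chk hirr hb hD
  · exact setTab (by norm_num) (by norm_num) ok_B15 B15.chk hirr hb hD
  · exact setTab (by norm_num) (by norm_num) ok_B16 B16.chk hirr hb hD
  · exact setTab (by norm_num) (by norm_num) ok_B18 B18.chk hirr hb hD
  · exact setTab (by norm_num) (by norm_num) ok_B19 B19.chk hirr hb hD
  · exact setTab (by norm_num) (by norm_num) ok_B20 B20.chk hirr hb hD
  · exact setTab (by norm_num) (by norm_num) ok_B21 B21.chk hirr hb hD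
  · exact setTab (by norm_num) (by norm_num) ok_B23 B23.chk hirr hb hD
  · exact setTab (by norm_num) (by norm_num) ok_B24 B24.chk hirr hb hD
  · exact setTab (by norm_num) (by norm_num) ok_B25 B25.chk hirr hb hD
  · exact setTab (by norm_num) (by norm_num) ok_B27 B27.chk hirr hb hD
  · exact setTab (by norm_num) (by norm_num) ok_B29 B29.chk hirr hb hD
  · exact setTab (by norm_num) (by norm_num) ok_B31 B31.chk hirr hb hD

end Vale.Agent.P032.Words6.H724
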